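import Mathlib
import Vale.Agent.P260.Defs
import Vale.Agent.P260.H145.ResDef
import Vale.Agent.P260.H848.V6

/-!
# P260, block W, module W4a: the finite residual of the kernel of a character

If `f : H → ℤ` is surjective with finitely generated kernel `K`, then `finRes H = finRes K`.
-/

namespace Vale.Agent.P260.H331

open Vale.Agent.P260.H145 (finRes ResFin)
open Vale.Agent.P260.H848 (core core_fin core_map core_le)

theorem finRes_le' {G : Type*} [Group G] (N : Subgroup G) (hN : N.FiniteIndex) :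
    finRes G ≤ N := by
  refine le_trans (sInf_le ?_) N.normalCore_le
  exact ⟨inferInstance, inferInstance⟩

/-- `finRes K ≤ finRes H` for every subgroup `K` of `H`. -/
theorem finRes_map_le {H : Type*} [Group H] (K : Subgroup H) :
    (finRes K).map K.subtype ≤ finRes H := by
  rintro _ ⟨x, hx, rfl⟩
  refine Subgroup.mem_sInf.2 fun N hN => ?_
  have hNf : N.FiniteIndex := hN.2
  have h1 : (N.subgroupOf K).FiniteIndex := inferInstance
  exact Subgroup.mem_subgroupOf.1 (finRes_le' _ h1 hx)

/-- virtual solvability passes to subgroups -/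
theorem vsolv_of_inj {A B : Type*} [Group A] [Group B] (f : A →* B)
    (hf : Function.Injective f) (h : VSolv B) : VSolv A := by
  obtain ⟨L, hL, hs⟩ := h
  refine ⟨L.comap f, ?_, ?_⟩
  · exact ⟨by
      rw [Subgroup.index_comap]
      exact fun h0 => hL.index_ne_zero (Subgroup.index_eq_zero_of_relIndex_eq_zero h0)⟩
  · have h1 : Function.Injective (f.subgroupComap L) := by
      intro x y hxy
      exact Subtype.ext (hf (congrArg Subtype.val hxy))
    exact Group.isSolvable_of_isSolvable_injective h1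

/-- virtual solvability passes to quotients -/
theorem vsolv_of_surj {A B : Type*} [Group A] [Group B] (f : A →* B)
    (hf : Function.Surjective f) (h : VSolv A) : VSolv B := by
  obtain ⟨L, hL, hs⟩ := h
  refine ⟨L.map f, ?_, ?_⟩
  · exact ⟨fun h0 => hL.index_ne_zero (Nat.eq_zero_of_zero_dvd (h0 ▸ L.index_map_dvd hf))⟩
  · exact Group.isSolvable_of_surjective (f.subgroupMap_surjective L)

section

variable {H : Type*} [Group H] (f : H →* Multiplicative ℤ)

/-- the subgroup generated by a characteristic subgroup of the kernel and a splitting element has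
finite index -/
theorem finiteIndex_sup {f : H →* Multiplicative ℤ} {t : H} (ht : f t = Multiplicative.ofAdd 1)
    (K0 : Subgroup f.ker) (h0 : K0.FiniteIndex) :
    (K0.map f.ker.subtype ⊔ Subgroup.zpowers t).FiniteIndex := by
  set L : Subgroup H := K0.map f.ker.subtype ⊔ Subgroup.zpowers t with hL
  have h1 : Finite (f.ker ⧸ K0) := inferInstance
  have h2 : ∀ a b : f.ker, (QuotientGroup.leftRel K0) a b →
      (QuotientGroup.mk (a : H) : H ⧸ L) = QuotientGroup.mk (b : H) := by
    intro a b hab
    rw [QuotientGroup.leftRel_apply] at hab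
    rw [QuotientGroup.eq]
    exact (le_sup_left : _ ≤ L) ⟨a⁻¹ * b, hab, rfl⟩
  let F : f.ker ⧸ K0 → H ⧸ L := Quotient.lift (fun a : f.ker =>
    (QuotientGroup.mk (a : H) : H ⧸ L)) h2
  have hF : Function.Surjective F := by
    intro y
    obtain ⟨h, rfl⟩ := QuotientGroup.mk_surjective y
    have h3 : h * t ^ (-(Multiplicative.toAdd (f h))) ∈ f.ker := by
      rw [MonoidHom.mem_ker, map_mul, map_zpow, ht, ← ofAdd_zsmul, smul_eq_mul, mul_one, ofAdd_neg,
        ofAdd_toAdd, mul_inv_cancel]
    refine ⟨QuotientGroup.mk ⟨_, h3⟩, ?_⟩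
    change (QuotientGroup.mk (h * t ^ (-(Multiplicative.toAdd (f h)))) : H ⧸ L)
      = QuotientGroup.mk h
    rw [QuotientGroup.eq]
    refine (le_sup_right : _ ≤ L) ?_
    rw [mul_inv_rev, mul_assoc, inv_mul_cancel, mul_one]
    exact Subgroup.inv_mem _ (Subgroup.zpow_mem _ (Subgroup.mem_zpowers t) _)
  have : Finite (H ⧸ L) := Finite.of_surjective F hF
  exact Subgroup.finiteIndex_of_finite_quotient

theorem inf_sup_le {f : H →* Multiplicative ℤ} {t : H} (ht : f t = Multiplicative.ofAdd 1)
    (K0 : Subgroup f.ker) (hn : (K0.map f.ker.subtype).Normal) {x : H} (hx : f x = 1)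
    (hxL : x ∈ K0.map f.ker.subtype ⊔ Subgroup.zpowers t) : x ∈ K0.map f.ker.subtype := by
  obtain ⟨y, hy, z, hz, rfl⟩ := Subgroup.mem_sup_of_normal_left.1 hxL
  obtain ⟨n, rfl⟩ := Subgroup.mem_zpowers_iff.1 hz
  obtain ⟨w, hw, rfl⟩ := hy
  have h1 : f (w : H) = 1 := w.2
  have h2 : f.ker.subtype w = (w : H) := rfl
  rw [h2, map_mul, h1, one_mul, map_zpow, ht, ← ofAdd_zsmul, smul_eq_mul, mul_one] at hx
  have h3 : n = 0 := by simpa using hx
  rw [h3, zpow_zero, mul_one]
  exact ⟨w, hw, rfl⟩

/-- **W4a.** The finite residual of a group is contained in the finite residual of the kernel of a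
surjective character with finitely generated kernel. -/
theorem finRes_le_ker (hf : Function.Surjective f) (hK : Group.FG f.ker) :
    finRes H ≤ (finRes f.ker).map f.ker.subtype := by
  obtain ⟨t, ht⟩ := hf (Multiplicative.ofAdd 1)
  intro g hg
  -- `g` is in the kernel
  have hgK : f g = 1 := by
    by_contra hne
    set d : ℤ := Multiplicative.toAdd (f g) with hd
    have hd0 : d ≠ 0 := fun h => hne (by rw [← ofAdd_toAdd (f g), ← hd, h, ofAdd_zero])
    let s : H →* Multiplicative (ZMod (2 * d.natAbs)) :=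
      (AddMonoidHom.toMultiplicative (Int.castAddHom (ZMod (2 * d.natAbs)))).comp f
    have hpos : 2 * d.natAbs ≠ 0 := by
      have := Int.natAbs_ne_zero.2 hd0
      omega
    have : NeZero (2 * d.natAbs) := ⟨hpos⟩
    have hfin : Finite (Multiplicative (ZMod (2 * d.natAbs))) := inferInstance
    have h1 : s.ker.FiniteIndex := inferInstance
    have h2 : s g = 1 := finRes_le' _ h1 hg
    have h3 : ((d : ℤ) : ZMod (2 * d.natAbs)) = 0 := h2
    rw [ZMod.intCast_zmod_eq_zero_iff_dvd] at h3
    have h4 := Int.le_of_dvd (Int.natAbs_pos.2 hd0 |> fun h => by exact_mod_cast h)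
      ((Int.dvd_natAbs).2 h3)
    push_cast at h4
    have h5 : 0 < |d| := abs_pos.2 hd0
    omega
  refine ⟨⟨g, hgK⟩, ?_, rfl⟩
  refine Subgroup.mem_sInf.2 fun N hN => ?_
  have hNf : N.FiniteIndex := hN.2
  set K0 : Subgroup f.ker := core f.ker (Equiv.Perm (f.ker ⧸ N)) with hK0
  have hfinP : Finite (Equiv.Perm (f.ker ⧸ N)) := inferInstance
  have hK0f : K0.FiniteIndex := core_fin _ _ hK
  have hn : (K0.map f.ker.subtype).Normal := by
    refine ⟨?_⟩
    rintro _ ⟨y, hy, rfl⟩ x
    refine ⟨MulAut.conjNormal x y, ?_, ?_⟩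
    · exact core_map (MulAut.conjNormal x).toMonoidHom hy
    · simp
  have h1 := finRes_le' _ (finiteIndex_sup ht K0 hK0f) hg
  obtain ⟨y, hy, hy'⟩ := inf_sup_le ht K0 hn hgK h1
  have h2 : y = ⟨g, hgK⟩ := Subtype.ext hy'
  rw [← h2]
  exact core_le N hy

/-- `VSolv (H / finRes H) → VSolv (K / finRes K)` -/
theorem vsolv_ker_quot (hf : Function.Surjective f) (hK : Group.FG f.ker)
    (h : VSolv (H ⧸ finRes H)) : VSolv (f.ker ⧸ finRes f.ker) := by
  let j : f.ker ⧸ finRes f.ker →* H ⧸ finRes H :=
    QuotientGroup.map (finRes f.ker) (finRes H) f.ker.subtype (by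
      intro x hx
      exact finRes_map_le f.ker ⟨x, hx, rfl⟩)
  refine vsolv_of_inj j ?_ h
  rw [injective_iff_map_eq_one]
  intro x hx
  obtain ⟨a, rfl⟩ := QuotientGroup.mk_surjective x
  have h1 : (a : H) ∈ finRes H := (QuotientGroup.eq_one_iff (a : H)).1 hx
  obtain ⟨b, hb, hab⟩ := finRes_le_ker f hf hK h1
  have h2 : b = a := Subtype.ext hab
  rw [h2] at hb
  exact (QuotientGroup.eq_one_iff a).2 hb

end

end Vale.Agent.P260.H331
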