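import Mathlib
import Vale.Agent.P260.Defs

/-!
# P260, block W, module W4b: finitely generated infinite virtually solvable groups

have a finite index subgroup with a surjection onto `ℤ`.
-/

namespace Vale.Agent.P260.H331

/-- some subgroup of finite index maps onto `ℤ` -/
def VInd (G : Type*) [Group G] : Prop :=
  ∃ S : Subgroup G, S.FiniteIndex ∧ ∃ φ : S →* Multiplicative ℤ, Function.Surjective φ

theorem VInd.of_fin {G : Type*} [Group G] (H : Subgroup G) (hH : H.FiniteIndex)
    (h : VInd H) : VInd G := by
  obtain ⟨S, hS, φ, hφ⟩ := h
  refine ⟨S.map H.subtype, ?_, ?_⟩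
  · refine ⟨?_⟩
    rw [Subgroup.index_map_subtype]
    exact mul_ne_zero hS.index_ne_zero hH.index_ne_zero
  · let e : S ≃* S.map H.subtype := S.equivMapOfInjective H.subtype H.subtype_injective
    exact ⟨φ.comp e.symm.toMonoidHom, hφ.comp e.symm.surjective⟩

/-- an infinite finitely generated abelian group maps onto `ℤ` -/
theorem exists_surj_of_infinite (A : Type*) [AddCommGroup A] [Module.Finite ℤ A] [Infinite A] :
    ∃ φ : A →+ ℤ, Function.Surjective φ := by
  let Q := A ⧸ Submodule.torsion ℤ A
  have hfree : Module.Free ℤ Q := inferInstance
  let b := Module.Free.chooseBasis ℤ Q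
  by_cases hne : Nonempty (Module.Free.ChooseBasisIndex ℤ Q)
  · obtain ⟨i⟩ := hne
    refine ⟨((b.coord i).comp (Submodule.torsion ℤ A).mkQ).toAddMonoidHom, ?_⟩
    intro n
    obtain ⟨a, ha⟩ := Submodule.mkQ_surjective (Submodule.torsion ℤ A) (n • b i)
    refine ⟨a, ?_⟩
    change b.coord i ((Submodule.torsion ℤ A).mkQ a) = n
    rw [ha, map_smul, Module.Basis.coord_apply, Module.Basis.repr_self, Finsupp.single_eq_same,
      smul_eq_mul, mul_one]
  · exfalso
    have hempty : IsEmpty (Module.Free.ChooseBasisIndex ℤ Q) := not_nonempty_iff.1 hne
    have hsub : Subsingleton Q := b.repr.toEquiv.subsingleton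
    have htop : Submodule.torsion ℤ A = ⊤ := by
      rw [← Submodule.Quotient.subsingleton_iff]
      exact hsub
    have htors : Module.IsTorsion ℤ A := by
      intro x
      have hx : x ∈ Submodule.torsion ℤ A := by rw [htop]; trivial
      exact (Submodule.mem_torsion_iff x).1 hx
    have := Module.finite_of_fg_torsion A htors
    exact not_finite A

theorem vind_of_ab (G : Type*) [Group G] (hG : Group.FG G) [Infinite (Abelianization G)] :
    ∃ φ : G →* Multiplicative ℤ, Function.Surjective φ := by
  have h1 : Group.FG (Abelianization G) :=
    Group.fg_of_surjective (f := Abelianization.of) (QuotientGroup.mk'_surjective _)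
  have h2 : AddGroup.FG (Additive (Abelianization G)) := inferInstance
  have h3 : Module.Finite ℤ (Additive (Abelianization G)) := Module.Finite.iff_addGroup_fg.2 h2
  have h4 : Infinite (Additive (Abelianization G)) := inferInstanceAs (Infinite (Abelianization G))
  obtain ⟨φ, hφ⟩ := exists_surj_of_infinite (Additive (Abelianization G))
  refine ⟨(AddMonoidHom.toMultiplicativeRight φ).comp Abelianization.of, ?_⟩
  intro n
  obtain ⟨a, ha⟩ := hφ (Multiplicative.toAdd n)
  obtain ⟨g, hg⟩ := QuotientGroup.mk'_surjective (commutator G) (Additive.toMul a)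
  refine ⟨g, ?_⟩
  have hg' : Abelianization.of g = Additive.toMul a := hg
  rw [MonoidHom.comp_apply, hg']
  change Multiplicative.ofAdd (φ (Additive.ofMul (Additive.toMul a))) = n
  rw [ofMul_toMul, ha, ofAdd_toAdd]

theorem vind_of_derived (n : ℕ) : ∀ (G : Type*) [Group G], Group.FG G → Infinite G →
    derivedSeries G n = ⊥ → VInd G := by
  induction n with
  | zero =>
    intro G _ _ hinf h
    rw [derivedSeries_zero] at h
    have : Subsingleton G := by
      rw [← Subgroup.subsingleton_iff, ← subsingleton_iff_bot_eq_top]
      exact h.symm
    exact (not_finite G).elim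
  | succ n ih =>
    intro G _ hfg hinf h
    by_cases hA : Infinite (Abelianization G)
    · obtain ⟨φ, hφ⟩ := vind_of_ab G hfg
      refine ⟨⊤, inferInstance, φ.comp (⊤ : Subgroup G).subtype, fun y => ?_⟩
      obtain ⟨g, hg⟩ := hφ y
      exact ⟨⟨g, trivial⟩, hg⟩
    · have hfin : Finite (Abelianization G) := not_infinite_iff_finite.1 hA
      have hci : (commutator G).FiniteIndex := by
        have : Finite (G ⧸ commutator G) := hfin
        exact Subgroup.finiteIndex_of_finite_quotient
      have hfg' : Group.FG (commutator G) := inferInstance
      have hinf' : Infinite (commutator G) := by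
        by_contra hcon
        have hfc : Finite (commutator G) := not_infinite_iff_finite.1 hcon
        have h1 : Finite (G ⧸ commutator G) := hfin
        have h2 : Finite G := Finite.of_equiv _ (Subgroup.groupEquivQuotientProdSubgroup (s := commutator G)).symm
        exact not_finite G
      refine VInd.of_fin _ hci (ih (commutator G) hfg' hinf' ?_)
      have key : ∀ m, (derivedSeries (commutator G) m).map (commutator G).subtype
          = derivedSeries G (m + 1) := by
        intro m
        induction m with
        | zero => rw [derivedSeries_zero, ← MonoidHom.range_eq_map, Subgroup.range_subtype,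
            derivedSeries_one]
        | succ m ihm =>
          rw [derivedSeries_succ, Subgroup.map_commutator, ihm, ← derivedSeries_succ]
      have h3 := key n
      rw [h] at h3
      exact (Subgroup.map_eq_bot_iff_of_injective _ (commutator G).subtype_injective).1 h3

/-- **W4b.** A finitely generated infinite virtually solvable group has a subgroup of finite index
with a surjection onto `ℤ`. -/
theorem vind_of_vsolv (G : Type*) [Group G] (hfg : Group.FG G) (hinf : Infinite G)
    (h : VSolv G) :
    ∃ S : Subgroup G, S.FiniteIndex ∧ ∃ φ : S →* Multiplicative ℤ, Function.Surjective φ := by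
  obtain ⟨H, hH, hs⟩ := h
  obtain ⟨n, hn⟩ := (Group.isSolvable_def H).1 hs
  have hfg' : Group.FG H := inferInstance
  have hinf' : Infinite H := by
    by_contra hcon
    have hfc : Finite H := not_infinite_iff_finite.1 hcon
    have h1 : Finite (G ⧸ H) := inferInstance
    have h2 : Finite G := Finite.of_equiv _ (Subgroup.groupEquivQuotientProdSubgroup (s := H)).symm
    exact not_finite G
  exact VInd.of_fin H hH (vind_of_derived n H hfg' hinf' hn)

end Vale.Agent.P260.H331
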