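import Mathlib
import Vale.Agent.P260.H493.Spec
import Vale.Agent.P260.H493.Basic

/-!
# P260 climb, module M5: contractions in low degrees

`StmtLowA` and `StmtLowB` of `H493/Spec.lean`.
-/

namespace Vale.Agent.P260.H331

open MonoidAlgebra
open Vale.Agent.P260.H493

section

variable {k Γ : Type} [Field k] [Group Γ] {ι κ : Type}

/-- basis vectors have degree `0` -/
theorem ge_basis (ψ : Γ →* Multiplicative ℤ) [DecidableEq ι] (j : ι) :
    Ge ψ 0 (Pi.single j 1 : ι → MonoidAlgebra k Γ) := by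
  have := (Shift.id (ψ := ψ) (ι := ι) (k := k)).basis j
  simpa using this

/-- the linear map with given values on the basis -/
noncomputable def lift [Finite ι] (w : ι → κ → MonoidAlgebra k Γ) :
    (ι → MonoidAlgebra k Γ) →ₗ[MonoidAlgebra k Γ] (κ → MonoidAlgebra k Γ) :=
  (Pi.basisFun (MonoidAlgebra k Γ) ι).constr ℕ w

theorem lift_basis [Finite ι] [DecidableEq ι] (w : ι → κ → MonoidAlgebra k Γ) (j : ι) :
    lift w (Pi.single j 1) = w j := by
  have := (Pi.basisFun (MonoidAlgebra k Γ) ι).constr_basis ℕ w j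
  rwa [Pi.basisFun_apply] at this

theorem single_smul_comm (g : Γ) (r : k) (v : ι → MonoidAlgebra k Γ) :
    single g (1 : k) • (r • v) = r • (single g (1 : k) • v) := by
  funext i
  simp [Pi.smul_apply]

theorem single_smul_smul (g h : Γ) (v : ι → MonoidAlgebra k Γ) :
    single g (1 : k) • (single h (1 : k) • v) = single (g * h) (1 : k) • v := by
  rw [smul_smul, single_mul_single, one_mul]

end

section

variable {k Γ : Type} [Field k] [Group Γ] (R : Res3 k Γ)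

theorem omega_mul (g h : Γ) : R.ω (g * h) = R.ω g * R.ω h := by
  obtain ⟨v, hv⟩ := R.eps_surj 1
  have h1 := R.eps_smul (g * h) v
  rw [← single_smul_smul, R.eps_smul, R.eps_smul, hv] at h1
  simpa using h1.symm

theorem omega_one : R.ω 1 = 1 := by
  obtain ⟨v, hv⟩ := R.eps_surj 1
  have h1 := R.eps_smul 1 v
  rw [← one_def, one_smul, hv] at h1
  simpa using h1.symm

theorem omega_ne (g : Γ) : R.ω g ≠ 0 := by
  intro h
  have := omega_mul R g g⁻¹
  rw [mul_inv_cancel, omega_one, h, zero_mul] at this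
  exact one_ne_zero this

/-- `ω(g)⁻¹ g` acting on vectors -/
noncomputable def hat {ι : Type} (g : Γ) (v : ι → MonoidAlgebra k Γ) : ι → MonoidAlgebra k Γ :=
  (R.ω g)⁻¹ • (single g (1 : k) • v)

theorem eps_hat (g : Γ) (v : R.ι0 → MonoidAlgebra k Γ) : R.ε (hat R g v) = R.ε v := by
  rw [hat, map_smul, R.eps_smul, smul_eq_mul, inv_mul_cancel_left₀ (omega_ne R g)]

theorem ge_hat {ι : Type} {ψ : Γ →* Multiplicative ℤ} {c : ℤ} {v : ι → MonoidAlgebra k Γ}
    (hv : Ge ψ c v) (g : Γ) : Ge ψ (deg ψ g + c) (hat R g v) :=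
  (hv.single_smul g 1).smul _

theorem map_hat {ι κ : Type}
    (T : (ι → MonoidAlgebra k Γ) →ₗ[MonoidAlgebra k Γ] (κ → MonoidAlgebra k Γ)) (g : Γ)
    (v : ι → MonoidAlgebra k Γ) : T (hat R g v) = hat R g (T v) := by
  rw [hat, hat, map_k_smul, T.map_smul]

/-- the linear map `e_j ↦ ω(g)⁻¹ g e_j` -/
noncomputable def Tg (g : Γ) :
    (R.ι0 → MonoidAlgebra k Γ) →ₗ[MonoidAlgebra k Γ] (R.ι0 → MonoidAlgebra k Γ) :=
  lift fun j => hat R g (Pi.single j 1)

theorem Tg_basis (g : Γ) (j : R.ι0) :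
    Tg R g (Pi.single j 1) = hat R g (Pi.single j 1) := lift_basis _ j

theorem shift_Tg {ψ : Γ →* Multiplicative ℤ} {C : ℤ} {g : Γ} (hg : C ≤ deg ψ g) :
    Shift ψ C (Tg R g) := by
  refine shift_of_basis fun j => ?_
  rw [Tg_basis]
  exact (ge_hat R (ge_basis ψ j) g).mono (by omega)

/-- `h₀` with `1 - d₀h₀ = T_g` -/
theorem exists_h0 (g : Γ) :
    ∃ h0 : (R.ι0 → MonoidAlgebra k Γ) →ₗ[MonoidAlgebra k Γ] (R.ι1 → MonoidAlgebra k Γ),
      ∀ v, R.d0 (h0 v) = v - Tg R g v := by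
  have h1 : ∀ j : R.ι0, ∃ w, R.d0 w = Pi.single j 1 - hat R g (Pi.single j 1) := by
    intro j
    rw [← R.ex0, map_sub, eps_hat, sub_self]
  choose w hw using h1
  refine ⟨lift w, fun v => ?_⟩
  have h2 : R.d0 ∘ₗ lift w = LinearMap.id - Tg R g := by
    refine (Pi.basisFun (MonoidAlgebra k Γ) R.ι0).ext fun j => ?_
    rw [Pi.basisFun_apply, LinearMap.comp_apply, lift_basis, hw, LinearMap.sub_apply, Tg_basis]
    rfl
  exact LinearMap.congr_fun h2 v

end

theorem stmtLowA : StmtLowA := by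
  intro k Γ _ _ ψ R ⟨g, hg⟩ C
  have h1 : C ≤ deg ψ (g ^ C.toNat) := by
    rw [deg_pow]
    have := Int.self_le_toNat C
    nlinarith [Int.toNat_of_nonneg (le_refl 0), Int.natCast_nonneg C.toNat]
  obtain ⟨h0, hh⟩ := exists_h0 R (g ^ C.toNat)
  refine ⟨h0, ?_⟩
  have h2 : LinearMap.id - R.d0 ∘ₗ h0 = Tg R (g ^ C.toNat) := LinearMap.ext fun v => by
    rw [LinearMap.sub_apply, LinearMap.comp_apply, hh, LinearMap.id_apply, sub_sub_cancel]
  rw [h2]
  exact shift_Tg R h1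

section

variable {k Γ : Type} [Field k] [Group Γ] (R : Res3 k Γ) (ψ : Γ →* Multiplicative ℤ)

/-- `v` becomes the boundary of a vector of high degree after pushing along `h ^ n`. -/
def Q (h : Γ) (v : R.ι0 → MonoidAlgebra k Γ) : Prop :=
  ∀ C : ℤ, ∃ N : ℕ, ∀ n ≥ N, ∃ w, Ge ψ C w ∧ R.d0 w = Tg R (h ^ n) v

variable {R ψ}

theorem Q.add {h : Γ} {v v' : R.ι0 → MonoidAlgebra k Γ} (hv : Q R ψ h v) (hv' : Q R ψ h v') :
    Q R ψ h (v + v') := by
  intro C
  obtain ⟨N, hN⟩ := hv C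
  obtain ⟨N', hN'⟩ := hv' C
  refine ⟨max N N', fun n hn => ?_⟩
  obtain ⟨w, hw, e⟩ := hN n (le_trans (le_max_left _ _) hn)
  obtain ⟨w', hw', e'⟩ := hN' n (le_trans (le_max_right _ _) hn)
  exact ⟨w + w', hw.add hw', by rw [map_add, map_add, e, e']⟩

theorem Q.smul {h : Γ} {v : R.ι0 → MonoidAlgebra k Γ} (hv : Q R ψ h v) (r : k) :
    Q R ψ h (r • v) := by
  intro C
  obtain ⟨N, hN⟩ := hv C
  refine ⟨N, fun n hn => ?_⟩
  obtain ⟨w, hw, e⟩ := hN n hn
  exact ⟨r • w, hw.smul r, by rw [map_k_smul, map_k_smul, e]⟩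

theorem Q.zero {h : Γ} : Q R ψ h 0 :=
  fun C => ⟨0, fun n _ => ⟨0, ge_zero C, by rw [map_zero, map_zero]⟩⟩

theorem Q.sum {h : Γ} {α : Type} {s : Finset α} {v : α → R.ι0 → MonoidAlgebra k Γ}
    (hv : ∀ a ∈ s, Q R ψ h (v a)) : Q R ψ h (∑ a ∈ s, v a) := by
  classical
  induction s using Finset.induction_on with
  | empty => simpa using Q.zero
  | insert a s ha ih =>
    rw [Finset.sum_insert ha]
    exact (hv a (by simp)).add (ih fun b hb => hv b (by simp [hb]))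

/-- constant vectors -/
theorem Q.const {h : Γ} (hh : 0 < deg ψ h) (b : R.ι0 → k)
    (hb : R.ε (∑ j, b j • (Pi.single j 1 : R.ι0 → MonoidAlgebra k Γ)) = 0) :
    Q R ψ h (∑ j, b j • (Pi.single j 1 : R.ι0 → MonoidAlgebra k Γ)) := by
  obtain ⟨w, hw⟩ := (R.ex0 _).1 hb
  obtain ⟨c, hc⟩ := exists_ge (ψ := ψ) w
  intro C
  refine ⟨(C - c).toNat, fun n hn => ⟨hat R (h ^ n) w, (ge_hat R hc _).mono ?_, ?_⟩⟩
  · rw [deg_pow]
    have h1 : C - c ≤ n := by omega
    nlinarith [Int.natCast_nonneg n]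
  · rw [map_hat, hw]
    simp only [hat, map_sum, Finset.smul_sum, map_k_smul, Tg_basis, single_smul_comm]
    refine Finset.sum_congr rfl fun j _ => ?_
    rw [smul_comm]

/-- walking along a path -/
theorem walk {S : Finset Γ} {C : ℤ} {j : R.ι0} {c0 : ℤ} {u : Γ → R.ι1 → MonoidAlgebra k Γ}
    (hu : ∀ s ∈ S, Ge ψ c0 (u s))
    (hd : ∀ s, R.d0 (u s) = single s (1 : k) • (Pi.single j 1 : R.ι0 → MonoidAlgebra k Γ)
      - R.ω s • (Pi.single j 1 : R.ι0 → MonoidAlgebra k Γ))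
    {x y : Γ} (hc : Conn S (fun z => ((C : ℤ) : ℝ) ≤ (deg ψ z : ℝ)) x y) :
    ∃ w, Ge ψ (C + c0) w ∧ R.d0 w = hat R y (Pi.single j 1) - hat R x (Pi.single j 1) := by
  obtain ⟨hp, hx⟩ := hc
  suffices H : ((C : ℤ) : ℝ) ≤ (deg ψ y : ℝ) ∧
      ∃ w, Ge ψ (C + c0) w ∧ R.d0 w = hat R y (Pi.single j 1) - hat R x (Pi.single j 1) from H.2
  induction hp with
  | refl => exact ⟨hx, 0, ge_zero _, by simp⟩
  | @tail b c _ hbc ih =>
    obtain ⟨hb, w, hw, e⟩ := ih
    obtain ⟨⟨s, hs, rfl⟩, hc⟩ := hbc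
    refine ⟨hc, w + (R.ω (b * s))⁻¹ • (single b (1 : k) • u s), hw.add (Ge.smul ?_ _), ?_⟩
    · refine ((hu s hs).single_smul b 1).mono ?_
      have : C ≤ deg ψ b := by exact_mod_cast hb
      omega
    · have h1 : hat R (b * s) (Pi.single j 1 : R.ι0 → MonoidAlgebra k Γ)
          = hat R b (Pi.single j 1) + (R.ω (b * s))⁻¹ • (single b (1 : k) •
            (single s (1 : k) • (Pi.single j 1 : R.ι0 → MonoidAlgebra k Γ)
              - R.ω s • (Pi.single j 1 : R.ι0 → MonoidAlgebra k Γ))) := by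
        rw [smul_sub, smul_sub, single_smul_smul, single_smul_comm, smul_smul, hat, hat]
        have h2 : (R.ω (b * s))⁻¹ * R.ω s = (R.ω b)⁻¹ := by
          rw [omega_mul, mul_inv, mul_assoc, inv_mul_cancel₀ (omega_ne R s), mul_one]
        rw [h2]; abel
      rw [map_add, map_k_smul, R.d0.map_smul, hd, e, h1]
      abel

theorem Q.edge {S : Finset Γ} {h : Γ}
    (hup : ∀ (g : Γ) (C : ℝ), ∃ N : ℕ, ∀ n ≥ N,
      Conn S (fun y => C ≤ (deg ψ y : ℝ)) (h ^ n) (g * h ^ n)) (g : Γ) (j : R.ι0) :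
    Q R ψ h (single g (1 : k) • (Pi.single j 1 : R.ι0 → MonoidAlgebra k Γ)
      - R.ω g • (Pi.single j 1 : R.ι0 → MonoidAlgebra k Γ)) := by
  classical
  have h1 : ∀ s : Γ, ∃ w, R.d0 w = single s (1 : k) • (Pi.single j 1 : R.ι0 → MonoidAlgebra k Γ)
      - R.ω s • (Pi.single j 1 : R.ι0 → MonoidAlgebra k Γ) := by
    intro s
    rw [← R.ex0, map_sub, R.eps_smul, map_smul, smul_eq_mul, sub_self]
  choose u hu using h1
  choose c hc using fun s : Γ => exists_ge (ψ := ψ) (u s)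
  obtain ⟨c0, hc0⟩ := (S.image c).bddBelow
  have hu' : ∀ s ∈ S, Ge ψ c0 (u s) := fun s hs =>
    (hc s).mono (hc0 (by simpa using ⟨s, hs, rfl⟩))
  intro C
  obtain ⟨N, hN⟩ := hup g ((C - c0 : ℤ) : ℝ)
  refine ⟨N, fun n hn => ?_⟩
  obtain ⟨w, hw, e⟩ := walk hu' hu (hN n hn)
  refine ⟨R.ω g • w, (hw.mono (by omega)).smul _, ?_⟩
  rw [map_k_smul, e, map_sub, map_k_smul, (Tg R (h ^ n)).map_smul, Tg_basis, smul_sub]
  congr 1
  rw [hat, hat, single_smul_comm, single_smul_smul, smul_smul, omega_mul, mul_inv,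
    mul_inv_cancel_left₀ (omega_ne R g)]

theorem Q.of_eps {S : Finset Γ} {h : Γ} (hh : 0 < deg ψ h)
    (hup : ∀ (g : Γ) (C : ℝ), ∃ N : ℕ, ∀ n ≥ N,
      Conn S (fun y => C ≤ (deg ψ y : ℝ)) (h ^ n) (g * h ^ n))
    (v : R.ι0 → MonoidAlgebra k Γ) (hv : R.ε v = 0) : Q R ψ h v := by
  classical
  have h1 : v = ∑ j, ∑ g ∈ (v j).coeff.support, (v j).coeff g •
        (single g (1 : k) • (Pi.single j 1 : R.ι0 → MonoidAlgebra k Γ)
          - R.ω g • (Pi.single j 1 : R.ι0 → MonoidAlgebra k Γ))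
      + ∑ j, (∑ g ∈ (v j).coeff.support, (v j).coeff g * R.ω g) •
        (Pi.single j 1 : R.ι0 → MonoidAlgebra k Γ) := by
    conv_lhs => rw [expand v]
    rw [← Finset.sum_add_distrib]
    refine Finset.sum_congr rfl fun j _ => ?_
    rw [Finset.sum_smul, ← Finset.sum_add_distrib]
    refine Finset.sum_congr rfl fun g _ => ?_
    rw [smul_sub, smul_smul]; abel
  have h2 : Q R ψ h (∑ j, ∑ g ∈ (v j).coeff.support, (v j).coeff g •
        (single g (1 : k) • (Pi.single j 1 : R.ι0 → MonoidAlgebra k Γ)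
          - R.ω g • (Pi.single j 1 : R.ι0 → MonoidAlgebra k Γ))) :=
    Q.sum fun j _ => Q.sum fun g _ => (Q.edge hup g j).smul _
  have h3 : R.ε (∑ j, ∑ g ∈ (v j).coeff.support, (v j).coeff g •
        (single g (1 : k) • (Pi.single j 1 : R.ι0 → MonoidAlgebra k Γ)
          - R.ω g • (Pi.single j 1 : R.ι0 → MonoidAlgebra k Γ))) = 0 := by
    rw [map_sum]
    refine Finset.sum_eq_zero fun j _ => ?_
    rw [map_sum]
    refine Finset.sum_eq_zero fun g _ => ?_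
    rw [map_smul, map_sub, R.eps_smul, map_smul, smul_eq_mul, smul_eq_mul, sub_self, mul_zero]
  have h4 : R.ε (∑ j, (∑ g ∈ (v j).coeff.support, (v j).coeff g * R.ω g) •
        (Pi.single j 1 : R.ι0 → MonoidAlgebra k Γ)) = 0 := by
    have := congrArg R.ε h1
    rw [map_add, h3, zero_add, hv] at this
    exact this.symm
  rw [h1]
  exact h2.add (Q.const hh _ h4)

end

theorem stmtLowB : StmtLowB := by
  intro k Γ _ _ ψ R S ⟨h, hh, hup⟩ C
  have hh' : 0 < deg ψ h := by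
    have h0 : (0 : ℝ) < (deg ψ h : ℝ) := hh
    exact_mod_cast h0
  have h1 : ∀ l : R.ι1, ∃ N : ℕ, ∀ n ≥ N, ∃ w, Ge ψ C w ∧
      R.d0 w = Tg R (h ^ n) (R.d0 (Pi.single l 1)) := fun l =>
    Q.of_eps hh' hup (R.d0 (Pi.single l 1)) ((R.ex0 _).2 ⟨_, rfl⟩) C
  choose N hN using h1
  let n : ℕ := max C.toNat (Finset.univ.sup N)
  have hn : C ≤ deg ψ (h ^ n) := by
    rw [deg_pow]
    have h2 : C ≤ n := by
      have : C.toNat ≤ n := le_max_left _ _
      omega
    nlinarith [Int.natCast_nonneg n]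
  have hn' : ∀ l, N l ≤ n := fun l =>
    (Finset.le_sup (f := N) (Finset.mem_univ l)).trans (le_max_right _ _)
  choose w hw e using fun l => hN l n (hn' l)
  obtain ⟨h0, hh0⟩ := exists_h0 R (h ^ n)
  have h2 : ∀ l : R.ι1, ∃ y, R.d1 y = Pi.single l 1 - h0 (R.d0 (Pi.single l 1)) - w l := by
    intro l
    rw [← R.ex1, map_sub, map_sub, hh0, e]
    abel
  choose y hy using h2
  refine ⟨h0, lift y, ?_, ?_⟩
  · have h2 : LinearMap.id - R.d0 ∘ₗ h0 = Tg R (h ^ n) := LinearMap.ext fun v => by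
      rw [LinearMap.sub_apply, LinearMap.comp_apply, hh0, LinearMap.id_apply, sub_sub_cancel]
    rw [h2]
    exact shift_Tg R hn
  · refine shift_of_basis fun l => ?_
    rw [LinearMap.sub_apply, LinearMap.sub_apply, LinearMap.comp_apply, LinearMap.comp_apply,
      lift_basis, hy, LinearMap.id_apply, sub_sub_cancel]
    exact hw l

end Vale.Agent.P260.H331
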